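import Vale.Agent.P022D.Loc.Glue

/-!
# P022, block Loc: the assembly of the local blocks, with the residual ramification
-/

set_option linter.all false

noncomputable section

namespace Vale.Agent.P022D.Loc

open NumberField IsLocalRing MvPowerSeries
open Vale.Agent.P022 Vale.Agent.P022.H443 Vale.Agent.P022D.R
open Vale.Agent.P027M.S (mx)
open Vale.Agent.P022D.Sel (M2 Dh IsDec)
open GlueP

/-- `LOCR` with the residual ramification at the unipotent primes -/
def LOCR2 : Prop := ∀ (O F : Type) [CommRing O] [IsDomain O] [IsDiscreteValuationRing O]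
  [IsAdicComplete (maximalIdeal O) O] [Field F] [Finite F] [CharP F 2] (S : Dat O F) (L : Pl O)
  (ϖ : O), Irreducible ϖ → L.Ok S →
  Closed (L.Cl S) ∧ (∀ l ∈ S.T, IsDec l (L.D l)) ∧
  (∀ (A : Type) [CommRing A] (X : Obj S A), (∀ g, X.ρ g = (L.r g).map X.ι) → L.Cl S A X) ∧
  ∃ (β : Type) (τ ι : β → Type) (_ : Fintype β) (_ : ∀ b, Fintype (τ b)) (_ : ∀ b, Fintype (ι b))
    (κ : Crd S (Ix τ L)), Loc L.D (L.Cl S) κ ∧
    Fintype.card (Σ b, τ b) + 4 * L.C.card = Fintype.card (Σ b, ι b) + 4 * S.T.card ∧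
    ∀ g : ℕ, ∃ D : Rl.Dat O (Ix τ L ⊕ Fin g) β L.C τ ι, D.Ok S.red ϖ ∧ (∀ γ, D.l γ = γ) ∧
      (∀ γ : L.C, S.red (D.n γ) = 0 → mx S.rb (L.τ γ) = 1) ∧
      (∀ γ, D.ξ γ ^ (D.l γ - 1) = 1) ∧
      ∀ (A : Type) [CommRing A] (X : Obj S A), L.Cl S A X → ∀ ψ : PS O (Ix τ L) g →+* A,
        (∀ o, ψ (MvPowerSeries.C o) = X.ι o) →
        (∀ i, ψ (MvPowerSeries.X (Sum.inl i)) = κ A X i) → Kil L D X ψ

theorem one_of {O F : Type} [CommRing O] [Field F] {i : O →+* F} {u v : M2 O} (h : u * v = 1)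
    {M : M2 F} {n : O} (h1 : u.map i * M * v.map i = !![1, i n; 0, 1]) (hn : i n = 0) : M = 1 := by
  rw [hn, ← Matrix.one_fin_two] at h1
  have h4 := congrArg (fun N => v.map i * N * u.map i) h1
  simp only [mul_assoc, (uv i h).2, mul_one] at h4
  simp only [← mul_assoc, (uv i h).2, one_mul] at h4
  exact h4

theorem locr2 (hC : CLO) (h2 : B2) (h0 : B0) (hW : BW) (hB : BC) : LOCR2 := by
  intro O F _ _ _ _ _ _ _ S L ϖ hϖ hL
  classical
  have hpr : ∀ l ∈ L.W ∪ L.C, l ≠ 0 ∧ l ≠ 2 := fun l hl =>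
    ⟨(hL.pr l hl).1.ne_zero, (hL.pr l hl).2⟩
  refine ⟨hC O F S L hL, fun l hl => ?_, fun A _ X h => cnd_pt hL X h, ?_⟩
  · rw [hL.hT, Finset.mem_insert, Finset.mem_insert] at hl
    rcases hl with rfl | rfl | hl
    · exact Or.inl ⟨rfl, L.c, hL.cj, if_pos rfl⟩
    · refine Or.inr ⟨Nat.prime_two, L.P 2, ?_, ?_, if_neg (by norm_num)⟩
      · rw [hL.h2]; exact Loc2.PP_prime 2
      · rw [hL.h2]; exact Loc2.p_mem_PP 2
    · exact Or.inr ⟨(hL.pr l hl).1, L.P l, (hL.hP l hl).1, (hL.hP l hl).2, if_neg (hpr l hl).1⟩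
  let B : Finset ℕ := insert 0 (insert 2 L.W)
  have hBl : ∀ b : B, Blk L S b (kk b) := by
    rintro ⟨b, hb⟩
    rw [Finset.mem_insert, Finset.mem_insert] at hb
    rcases hb with rfl | rfl | hb
    · exact h0 O F S L hL
    · exact h2 O F S L hL
    · have h := hpr b (Finset.mem_union_left _ hb)
      show Blk L S b (kk b)
      rw [kk, if_neg h.1, if_neg h.2]
      exact hW O F S L hL b hb
  choose τ ι iτ iι g p q c f hcard hc hconst hblk htan hvan using hBl
  have hCl := fun γ : L.C => hB O F S L hL γ γ.2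
  choose u v b n huv hφ hτ using fun γ : L.C => (hCl γ).1
  let κ : Crd S (Ix τ L) := fun A _ X i =>
    Sum.elim (fun s : Σ b, τ b => lr X s.1 (g s.1 s.2) (p s.1 s.2) (q s.1 s.2) - X.ι (c s.1 s.2))
      (fun s : L.C × Fin 8 => cc (cv X s.1 (u s.1) (v s.1) (L.φ s.1))
        (cv X s.1 (u s.1) (v s.1) (L.τ s.1)) (X.ι (b s.1)) (X.ι (n s.1)) s.2) i
  refine ⟨B, τ, ι, inferInstance, iτ, iι, κ, ⟨?_, ?_, ?_⟩, ?_, fun gg => ?_⟩
  · rintro A A' _ _ X Y w h - (s | s)
    · show w (_ - _) = _ - _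
      rw [map_sub, h.ι, ← lr_hom h]; rfl
    · show w (cc _ _ _ _ _) = cc _ _ _ _ _
      rw [cc_map, cv_hom h, cv_hom h, h.ι, h.ι]
  · rintro A _ X - (s | s)
    · show X.π (_ - _) = 0
      rw [map_sub, X.alg, hc, ← lr_res X s.1]
      exact sub_self _
    · show X.π (cc _ _ _ _ _) = 0
      rw [cc_map, cv_res, cv_res, hφ, hτ, X.alg, X.alg, cc_zero]
  · intro Y y1 y2 hY hκ l hl x hx
    have hs : Std Y := ⟨y1, y2⟩
    by_cases hlB : l ∈ B
    · exact htan ⟨l, hlB⟩ Y hs hY (fun t => sub_eq_zero.1 (hκ (Sum.inl ⟨⟨l, hlB⟩, t⟩))) x hx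
    · have hlC : l ∈ L.C := by
        rw [hL.hT] at hl
        simp only [B, Finset.mem_insert, Finset.mem_union, not_or] at hl hlB
        tauto
      obtain ⟨e1, e2⟩ := of_cc (M := cv Y l (u ⟨l, hlC⟩) (v ⟨l, hlC⟩) (L.φ l))
        (N := cv Y l (u ⟨l, hlC⟩) (v ⟨l, hlC⟩) (L.τ l)) (b := Y.ι (b ⟨l, hlC⟩))
        (n := Y.ι (n ⟨l, hlC⟩)) fun i => hκ (Sum.inr (⟨l, hlC⟩, i))
      exact (hCl ⟨l, hlC⟩).2.2.1 Y hs (lr_const hs l (huv _) _ _ (hφ _) e1)
        (lr_const hs l (huv _) _ _ (hτ _) e2) x hx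
  · have hW0 : ∀ l ∈ L.W, kk l = 4 := fun l hl => by
      have h := hpr l (Finset.mem_union_left _ hl)
      rw [kk, if_neg h.1, if_neg h.2]
    have n2 : 2 ∉ L.W ∪ L.C := fun h => (hpr 2 h).2 rfl
    have n0 : 0 ∉ L.W ∪ L.C := fun h => (hpr 0 h).1 rfl
    have hk : ∑ b : B, kk b = 8 + 4 * L.W.card := by
      rw [Finset.sum_coe_sort B kk, Finset.sum_insert, Finset.sum_insert,
        Finset.sum_congr rfl hW0, Finset.sum_const, smul_eq_mul]
      · simp only [kk]; norm_num; ring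
      · exact fun h => n2 (Finset.mem_union_left _ h)
      · rw [Finset.mem_insert, not_or]
        exact ⟨by norm_num, fun h => n0 (Finset.mem_union_left _ h)⟩
    have hT : S.T.card = 2 + L.W.card + L.C.card := by
      rw [hL.hT, Finset.card_insert_of_notMem, Finset.card_insert_of_notMem n2,
        Finset.card_union_of_disjoint hL.dj]
      · ring
      · rw [Finset.mem_insert, not_or]
        exact ⟨by norm_num, n0⟩
    rw [Fintype.card_sigma, Fintype.card_sigma, Finset.sum_congr rfl fun b _ => hcard b,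
      Finset.sum_add_distrib, hk, hT]
    ring
  · have h2a := fun γ : L.C => two_adic (hL.pr γ (Finset.mem_union_right _ γ.2)).1
      (hL.pr γ (Finset.mem_union_right _ γ.2)).2
    choose a ha using fun γ : L.C => (h2a γ).1
    choose a' ha' using fun γ : L.C => (h2a γ).2
    let D : Rl.Dat O (Ix τ L ⊕ Fin gg) B L.C τ ι :=
      { e := Function.Embedding.inl
        f := f
        s := fun _ => 1
        b := b
        n := n
        ξ := fun γ => (L.r (L.τ γ)).det
        l := fun γ => γ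
        a := a
        a' := a' }
    refine ⟨D, ⟨S.surj, ?_, hconst, hblk, fun γ => ?_, fun γ => ?_, ha, ha'⟩, fun _ => rfl,
      fun γ hγ => one_of (huv γ) (hτ γ) hγ, fun γ => (hCl γ).2.2.2, fun A _ X hX ψ hψC hψX => ?_⟩
    · rw [← hϖ.maximalIdeal_eq]
      exact Ideal.ext fun c => hL.ker c
    · show S.red 1 ≠ 0
      rw [map_one]; exact one_ne_zero
    · show S.red (L.r (L.τ γ)).det = 1
      rw [RingHom.map_det, ← hL.det (L.τ γ), ← hL.lift]; rfl
    · have hm : ∀ γ : L.C, (D.Φ γ).map ψ = cv X γ (u γ) (v γ) (L.φ γ) ∧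
          (D.T γ).map ψ = cv X γ (u γ) (v γ) (L.τ γ) := fun γ =>
        mP_map ψ X.ι hψC (D.x γ) _ _ (b γ) (n γ) fun k => hψX (Sum.inr (γ, k))
      refine ⟨sup_le (sup_le ?_ ?_) ?_, fun γ => ?_, fun γ hγ i j => ?_⟩
      · rw [Ideal.span_le]
        rintro _ ⟨s, rfl⟩
        exact hvan s.1 A X hX (ψ.comp (rename (R := O) (CA.emb D.eg s.1)).toRingHom)
          (fun o => (congrArg ψ (rename_C _ o)).trans (hψC o))
          (fun t => (congrArg ψ (rename_X _ t)).trans (hψX (Sum.inl ⟨s.1, t⟩))) s.2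
      · rw [Ideal.span_le]
        rintro _ ⟨s, rfl⟩
        have e : ψ.mapMatrix (D.Φ s.1 * D.T s.1 - D.T s.1 ^ D.l s.1 * D.Φ s.1) = 0 := by
          rw [map_sub, map_mul, map_mul, map_pow, RingHom.mapMatrix_apply, RingHom.mapMatrix_apply,
            (hm _).1, (hm _).2, sub_eq_zero]
          have e1 := (hCl s.1).2.1 A X
          rw [← map_pow, ← map_mul, ← map_mul] at e1
          have e2 := cv_congr X s.1 (u s.1) (v s.1) e1
          change cvh X s.1 (huv s.1) _ = cvh X s.1 (huv s.1) _ at e2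
          rw [map_mul, map_mul, map_pow] at e2
          exact e2
        exact congrFun (congrFun e s.2.1) s.2.2
      · rw [Ideal.span_le]
        rintro _ ⟨γ, rfl⟩
        show ψ ((D.T γ).det - C (D.ξ γ)) = 0
        rw [map_sub, RingHom.map_det, RingHom.mapMatrix_apply, (hm γ).2, cv_det X _ (huv γ), hψC,
          hX.dl γ (Finset.mem_union_right _ γ.2)]
        exact sub_self _
      · rw [← cv_tr X γ (huv γ), ← (hm γ).1, Matrix.trace_fin_two, Matrix.trace_fin_two, map_add]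
        rfl
      · have e : ψ.mapMatrix (D.T γ - 1) = 0 := by
          rw [map_sub, map_one, RingHom.mapMatrix_apply, (hm γ).2, sub_eq_zero,
            cv_congr X γ (u γ) (v γ) (k := 1) (by rw [hγ, map_one])]
          exact (cvh X γ (huv γ)).map_one
        exact congrFun (congrFun e i) j

end Vale.Agent.P022D.Loc
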