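import Vale.Agent.P022D.Loc.Defs

/-!
# P022, dihedral case, block Loc: the unipotent primes
-/

set_option linter.all false

noncomputable section

namespace Vale.Agent.P022D.Loc

open NumberField IsLocalRing
open Vale.Agent.P022 Vale.Agent.P022.H443 Vale.Agent.P022D.R
open Vale.Agent.P027M.S (mx)
open Vale.Agent.P022D.Sel (M2 Dh IsDec)

namespace BCA

theorem sq_one {F : Type} [Field F] [CharP F 2] {M : M2 F} (ht : M.trace = 0) (hd : M.det = 1) :
    M * M = 1 := by
  have h2 : (2 : F) = 0 := CharTwo.two_eq_zero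
  rw [Matrix.trace_fin_two] at ht
  rw [Matrix.det_fin_two] at hd
  ext i j
  fin_cases i <;> fin_cases j <;> simp [Matrix.mul_apply, Fin.sum_univ_two]
  · linear_combination M 0 0 * ht - hd - h2
  · linear_combination M 0 1 * ht
  · linear_combination M 1 0 * ht
  · linear_combination M 1 1 * ht - hd - h2

theorem odd_one {A F : Type} [CommRing A] [Field F] [CharP F 2] (π : A →+* F)
    (loc : ∀ a, π a ≠ 0 → IsUnit a) {M : M2 A} {m : ℕ} (hm : Odd m) (h : M ^ m = 1)
    (h2 : M.map π * M.map π = 1) : M = 1 := by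
  have e1 : π.mapMatrix M = 1 := by
    obtain ⟨k, rfl⟩ := hm
    have h3 := congrArg π.mapMatrix h
    rw [map_pow, map_one, pow_succ, pow_mul, sq] at h3
    have h4 : π.mapMatrix M * π.mapMatrix M = (1 : M2 F) := h2
    rwa [h4, one_pow, one_mul] at h3
  have e2 : π.mapMatrix (∑ i ∈ Finset.range m, M ^ i) = 1 := by
    rw [map_sum, Finset.sum_congr rfl (g := fun _ => 1) (fun i _ => by rw [map_pow, e1, one_pow]),
      Finset.sum_const, Finset.card_range]
    obtain ⟨k, rfl⟩ := hm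
    have h5 : (2 : ℕ) • (1 : M2 F) = 0 := by
      rw [two_nsmul]
      ext i j
      exact CharTwo.add_self_eq_zero _
    rw [add_nsmul, mul_nsmul, h5, nsmul_zero, zero_add, one_nsmul]
  have hu : IsUnit (∑ i ∈ Finset.range m, M ^ i) := by
    rw [Matrix.isUnit_iff_isUnit_det]
    apply loc
    rw [RingHom.map_det, e2, Matrix.det_one]
    exact one_ne_zero
  have e3 := geom_sum_mul M m
  rw [h, sub_self] at e3
  exact sub_eq_zero.1 (hu.mul_right_eq_zero.1 e3)

variable {G A F : Type} [Group G] [CommRing A] [Field F] [CharP F 2] {l : ℕ}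
  {D I N : Subgroup G} {τ φ : G} {f : G →* M2 A}

theorem wild (π : A →+* F) (loc : ∀ a, π a ≠ 0 → IsUnit a) (h : W.TameAt l D I N τ φ f)
    (h2 : ∀ g ∈ D, (f g).map π * (f g).map π = 1) {p : G} (hp : p ∈ N) : f p = 1 := by
  obtain ⟨m, hm, e⟩ := h.odd p hp
  exact odd_one π loc hm e (h2 p (h.ID (h.NI hp)))

theorem rel (π : A →+* F) (loc : ∀ a, π a ≠ 0 → IsUnit a) (h : W.TameAt l D I N τ φ f)
    (h2 : ∀ g ∈ D, (f g).map π * (f g).map π = 1) : f φ * f τ = f τ ^ l * f φ := by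
  obtain ⟨p, hp, e⟩ := h.rel τ h.tau
  have e1 : φ * τ = p * τ ^ l * φ := by rw [← e]; group
  rw [← map_mul, e1, map_mul, map_mul, wild π loc h h2 hp, one_mul, map_pow]

theorem gen (π : A →+* F) (loc : ∀ a, π a ≠ 0 → IsUnit a) (h : W.TameAt l D I N τ φ f)
    (h2 : ∀ g ∈ D, (f g).map π * (f g).map π = 1) {g : G} (hg : g ∈ D) :
    ∃ k j : ℕ, f g = f φ ^ k * f τ ^ j := by
  obtain ⟨k, s, hs, e⟩ := h.gen g hg
  obtain ⟨j, p, hp, rfl⟩ := h.cyc s hs
  exact ⟨k, j, by rw [e, map_mul, map_mul, wild π loc h h2 hp, mul_one, map_pow, map_pow]⟩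

/-- a triangular basis -/
theorem basis (rb : G →* M2 F) (H : Subgroup G)
    (dg : ∀ g ∈ H, rb g 0 1 = 0 ∧ rb g 1 0 = 0) (ad : ∀ g ∉ H, rb g 0 0 = 0 ∧ rb g 1 1 = 0)
    (ht : ∀ g ∈ D, (rb g).trace = 0) (hd : ∀ g, (rb g).det = 1) :
    ∃ β : F, ∀ g ∈ D, ∃ b : F, !![0, 1; 1, -β] * rb g * !![β, 1; 1, 0] = !![1, b; 0, 1] := by
  have h2 : (2 : F) = 0 := CharTwo.two_eq_zero
  have h1 : ∀ g ∈ D, g ∈ H → rb g = 1 := by
    intro g hg hH
    obtain ⟨a, b⟩ := dg g hH
    have t := ht g hg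
    have d := hd g
    rw [Matrix.trace_fin_two] at t
    rw [Matrix.det_fin_two, a] at d
    have e : (rb g 0 0 - 1) ^ 2 = 0 := by
      linear_combination rb g 0 0 * t - d - (rb g 0 0) * h2
    have e0 : rb g 0 0 = 1 := sub_eq_zero.1 (pow_eq_zero_iff two_ne_zero |>.1 e)
    ext i j
    fin_cases i <;> fin_cases j <;> simp [a, b, e0]
    linear_combination t - e0 - h2
  have hone : ∀ β : F, (!![0, 1; 1, -β] * (1 : M2 F) * !![β, 1; 1, 0] : M2 F) = !![1, 0; 0, 1] := by
    intro β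
    ext i j
    fin_cases i <;> fin_cases j <;> simp [Matrix.mul_apply, Fin.sum_univ_two]
  by_cases hex : ∃ w ∈ D, w ∉ H
  · obtain ⟨w, hw, hwH⟩ := hex
    refine ⟨rb w 0 1, fun g hg => ?_⟩
    by_cases hH : g ∈ H
    · exact ⟨0, by rw [h1 g hg hH, hone]⟩
    · obtain ⟨a, b⟩ := ad g hH
      obtain ⟨a', b'⟩ := ad w hwH
      have d := hd g
      have d' := hd w
      rw [Matrix.det_fin_two, a] at d
      rw [Matrix.det_fin_two, a'] at d'
      have hm : g * w ∈ H := by
        by_contra hn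
        have h3 := (ad _ hn).1
        rw [map_mul, Matrix.mul_apply, Fin.sum_univ_two, a] at h3
        have h4 : (1 : F) = 0 := by
          linear_combination (rb g 1 0 * rb w 0 1) * h3 - d - (0 - rb g 0 1 * rb g 1 0) * d'
        exact one_ne_zero h4
      have h5 := congrFun (congrFun (h1 _ (D.mul_mem hg hw) hm) 1) 1
      have h6 := congrFun (congrFun (h1 _ (D.mul_mem hg hw) hm) 0) 0
      rw [map_mul, Matrix.mul_apply, Fin.sum_univ_two, b] at h5
      rw [map_mul, Matrix.mul_apply, Fin.sum_univ_two, a] at h6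
      simp only [Matrix.one_apply_eq] at h5 h6
      have h7 : rb g 0 1 = rb w 0 1 := by
        linear_combination -(rb w 0 1 * h6 + rb g 0 1 * d') - rb w 0 1 * h2
      refine ⟨rb g 1 0, ?_⟩
      rw [Matrix.eta_fin_two (rb g), a, b]
      ext i j
      fin_cases i <;> fin_cases j <;> simp [Matrix.mul_apply, Fin.sum_univ_two]
      · linear_combination h5
      · linear_combination h7 - rb w 0 1 * h5
      · linear_combination (-1 : F) * h5 - h2
  · refine ⟨1, fun g hg => ⟨0, ?_⟩⟩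
    rw [h1 g hg (by_contra fun hn => hex ⟨g, hg, hn⟩), hone]

end BCA

theorem bc : BC := by
  intro O F _ _ _ _ _ S L hL l hl
  have hl' : l ∈ L.W ∪ L.C := Finset.mem_union_right _ hl
  have hT := hL.tm l hl'
  have hsq : ∀ g ∈ W.dec (L.P l), mx S.rb g * mx S.rb g = 1 := fun g hg =>
    BCA.sq_one (hL.uni l hl g hg) (hL.det g)
  have hφ : L.φ l ∈ W.dec (L.P l) := W.phi_mem (hL.pr l hl').1 (hL.hP l hl').1 hT.frob
  have hτ : L.τ l ∈ W.dec (L.P l) := W.inP_le_dec hT.tau
  refine ⟨?_, fun A _ X => ?_, fun Y hY e1 e2 x hx => ?_, ?_⟩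
  · obtain ⟨β, hβ⟩ := BCA.basis (D := W.dec (L.P l))
      ((Units.coeHom (M2 F)).comp S.rb) L.H hL.dh.dg hL.dh.ad (hL.uni l hl) hL.det
    obtain ⟨β, rfl⟩ := S.surj β
    obtain ⟨b, hb⟩ := hβ _ hφ
    obtain ⟨n, hn⟩ := hβ _ hτ
    obtain ⟨b, rfl⟩ := S.surj b
    obtain ⟨n, rfl⟩ := S.surj n
    have e1 : (!![0, 1; 1, -β] : M2 O).map S.red = !![0, 1; 1, -S.red β] := by
      ext i j
      fin_cases i <;> fin_cases j <;> simp
    have e2 : (!![β, 1; 1, 0] : M2 O).map S.red = !![S.red β, 1; 1, 0] := by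
      ext i j
      fin_cases i <;> fin_cases j <;> simp
    refine ⟨!![0, 1; 1, -β], !![β, 1; 1, 0], b, n, ?_, ?_, ?_⟩
    · ext i j
      fin_cases i <;> fin_cases j <;> simp [Matrix.mul_apply, Fin.sum_univ_two]
    · rw [e1, e2]; exact hb
    · rw [e1, e2]; exact hn
  · obtain ⟨N, hN⟩ := hT.tame _ X.ρ X.opn
    exact BCA.rel X.π X.loc hN fun g hg => by rw [X.res]; exact hsq g hg
  · have hl0 : l ≠ 0 := (hL.pr l hl').1.ne_zero
    rw [Pl.D, if_neg hl0] at hx
    obtain ⟨N, hN⟩ := hT.tame _ Y.ρ Y.opn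
    obtain ⟨k, j, e⟩ := BCA.gen Y.π Y.loc hN (fun g hg => by rw [Y.res]; exact hsq g hg) hx
    have e3 : mx S.rb x = mx S.rb (L.φ l) ^ k * mx S.rb (L.τ l) ^ j := by
      rw [← Y.res, ← Y.res, ← Y.res]
      have := congrArg Y.π.mapMatrix e
      rwa [map_mul, map_pow, map_pow] at this
    have e4 : lr Y l x = lr Y l (L.φ l) ^ k * lr Y l (L.τ l) ^ j := by
      rw [← map_pow, ← map_pow, ← map_mul, lr_apply, lr_apply, e, map_mul, map_pow, map_pow]
    rw [e4, e1, e2, e3]
    have := (TrivSqZeroExt.inlHom F F).mapMatrix.map_mul (mx S.rb (L.φ l) ^ k)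
      (mx S.rb (L.τ l) ^ j)
    rw [map_pow, map_pow] at this
    exact this.symm
  · have hu : ∀ g, IsUnit (L.r g).det := fun g =>
      (Matrix.isUnit_iff_isUnit_det _).1 ((Group.isUnit g).map L.r)
    have key : (L.r (L.φ l)).det * (L.r (L.τ l)).det -
        (L.r (L.τ l)).det ^ l * (L.r (L.φ l)).det = 0 := by
      refine IsHausdorff.haus' (I := maximalIdeal O) _ fun k => ?_
      rw [SModEq.zero, smul_eq_mul, Ideal.mul_top]
      refine Ideal.pow_le_pow_right (Nat.le_succ k) ?_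
      let q := Ideal.Quotient.mk (maximalIdeal O ^ (k + 1))
      let π : O ⧸ maximalIdeal O ^ (k + 1) →+* F := Ideal.Quotient.lift _ S.red fun a ha =>
        (hL.ker a).2 (Ideal.pow_le_self (Nat.succ_ne_zero k) ha)
      have loc : ∀ a, π a ≠ 0 → IsUnit a := by
        intro a ha
        obtain ⟨a, rfl⟩ := Ideal.Quotient.mk_surjective a
        refine IsUnit.map q ?_
        by_contra hn
        exact ha ((hL.ker a).2 hn)
      let f : GQ →* M2 (O ⧸ maximalIdeal O ^ (k + 1)) :=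
        (q.mapMatrix : M2 O →+* M2 _).toMonoidHom.comp L.r
      obtain ⟨N, hN⟩ := hT.tame _ f (hL.cont (k + 1))
      have h1 := BCA.rel π loc hN fun g hg => by
        have : (f g).map π = mx S.rb g := by
          rw [← hL.lift]
          ext i j
          rfl
        rw [this]; exact hsq g hg
      have h2 := congrArg Matrix.det h1
      have h3 : ∀ g, (f g).det = q (L.r g).det := fun g => (RingHom.map_det q _).symm
      rw [Matrix.det_mul, Matrix.det_mul, Matrix.det_pow, h3, h3] at h2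
      rw [← Ideal.Quotient.eq_zero_iff_mem, map_sub, map_mul, map_mul, map_pow]
      exact sub_eq_zero.2 h2
    obtain ⟨m, hm⟩ := Nat.exists_eq_succ_of_ne_zero (hL.pr l hl').1.ne_zero
    have e : (L.r (L.φ l)).det * (L.r (L.τ l)).det * ((L.r (L.τ l)).det ^ (l - 1) - 1) = 0 := by
      have : (L.r (L.τ l)).det ^ l = (L.r (L.τ l)).det ^ (l - 1) * (L.r (L.τ l)).det := by
        rw [← pow_succ]; congr 1; omega
      rw [this] at key
      linear_combination -key
    exact sub_eq_zero.1 (((hu _).mul (hu _)).mul_right_eq_zero.1 e)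

end Vale.Agent.P022D.Loc
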