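import Vale.Agent.P022D.Loc.Glue2
import Vale.Agent.P022D.Loc.B2
import Vale.Agent.P022D.Loc.BC
import Vale.Agent.P022D.Loc.BW
import Vale.Agent.P022D.Loc.Expl

/-!
# P022, block Loc: the outputs
-/

namespace Vale.Agent.P022D.Loc

theorem locrC (h : Loc2.Two2) : LOCR := locr clo (b2 h) b0 bw bc

theorem locr2C (h : Loc2.Two2) : LOCR2 := locr2 clo (b2 h) b0 bw bc

end Vale.Agent.P022D.Loc
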