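import Vale.Agent.P022D.R.Defs
import Vale.Agent.P022D.Rl.Defs
import Vale.Agent.P022D.Loc2.Defs
import Vale.Agent.P022D.Loc2.Dec
import Vale.Agent.P022D.W.Tame

/-!
# P022, dihedral case, block Loc: the class of test objects and its local coordinates
-/

set_option linter.all false

noncomputable section

namespace Vale.Agent.P022D.Loc

open NumberField IsLocalRing
open Vale.Agent.P022 Vale.Agent.P022.H443 Vale.Agent.P022D.R
open Vale.Agent.P027M.S (mx)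
open Vale.Agent.P022D.Sel (M2 Dh IsDec)

/-- `φ` is a Frobenius element at `P`, `τ` generates the inertia group up to odd order -/
structure Tm (l : ℕ) (P : Ideal (𝓞 Qb)) (τ φ : GQ) : Prop where
  tau : τ ∈ inP P
  frob : ∀ x : 𝓞 Qb, φ • x - x ^ l ∈ P
  tame : ∀ (Γ : Type) [Monoid Γ] (f : GQ →* Γ), IsOpen {g : GQ | f g = 1} →
    ∃ N : Subgroup GQ, W.TameAt l (W.dec P) (inP P) N τ φ f

/-- the places (`W`: regular, `C`: unipotent), the local elements, the point `r` and its types -/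
structure Pl (O : Type) [CommRing O] where
  H : Subgroup GQ
  W : Finset ℕ
  C : Finset ℕ
  P : ℕ → Ideal (𝓞 Qb)
  c : GQ
  τ : ℕ → GQ
  φ : ℕ → GQ
  g0 : ℕ → GQ
  r : GQ →* M2 O
  a : ℕ → O

/-- `y` is an eigenvalue of `σ g0` -/
def Rt {A : Type} [CommRing A] (σ : GQ →* M2 A) (g0 : GQ) (y : A) : Prop :=
  y ^ 2 - (σ g0).trace * y + (σ g0).det = 0

/-- in a basis with `σ g0 = diag (y', y)` the first entry of `σ s` is `a` -/
def En {A : Type} [CommRing A] (σ : GQ →* M2 A) (g0 s : GQ) (y a : A) : Prop :=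
  (σ (s * g0)).trace - y * (σ s).trace = a * ((σ g0).trace - 2 * y)

variable {O F : Type} [CommRing O] [Field F]

/-- the decomposition groups -/
def Pl.D (L : Pl O) (l : ℕ) : Set GQ := if l = 0 then {1, L.c} else (W.dec (L.P l) : Set GQ)

/-- the hypotheses on the data -/
structure Pl.Ok [IsLocalRing O] (L : Pl O) (S : Dat O F) : Prop where
  ker : ∀ c, S.red c = 0 ↔ c ∈ maximalIdeal O
  dh : Dh S.rb L.H
  det : ∀ g, (mx S.rb g).det = 1
  hT : S.T = insert 0 (insert 2 (L.W ∪ L.C))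
  dj : Disjoint L.W L.C
  pr : ∀ l ∈ L.W ∪ L.C, l.Prime ∧ l ≠ 2
  hP : ∀ l ∈ L.W ∪ L.C, (L.P l).IsPrime ∧ (l : 𝓞 Qb) ∈ L.P l
  h2 : L.P 2 = Loc2.PP 2
  cj : IsConj L.c
  tm : ∀ l ∈ L.W ∪ L.C, Tm l (L.P l) (L.τ l) (L.φ l)
  reg : ∀ l ∈ L.W, L.g0 l ∈ W.dec (L.P l) ∧ L.g0 l ∈ L.H ∧
    mx S.rb (L.g0 l) 0 0 ≠ mx S.rb (L.g0 l) 1 1
  uni : ∀ l ∈ L.C, ∀ g ∈ W.dec (L.P l), (mx S.rb g).trace = 0
  lift : ∀ g, (L.r g).map S.red = mx S.rb g
  cont : ∀ k : ℕ, IsOpen {g : GQ | (L.r g).map (Ideal.Quotient.mk (maximalIdeal O ^ k)) = 1}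
  odd : (L.r L.c).det = -1
  ty : ∀ l ∈ L.W, ∃ y : O, Rt L.r (L.g0 l) y ∧ S.red y = mx S.rb (L.g0 l) 1 1 ∧
    En L.r (L.g0 l) (L.τ l) y (L.a l)

/-- **the local conditions** (they only depend on traces and determinants) -/
structure Cnd (L : Pl O) (S : Dat O F) {A : Type} [CommRing A] (X : Obj S A) : Prop where
  d2 : ∀ g ∈ W.dec (L.P 2), (X.ρ g).det = X.ι (L.r g).det
  dc : (X.ρ L.c).det = -1
  dl : ∀ l ∈ L.W ∪ L.C, (X.ρ (L.τ l)).det = X.ι (L.r (L.τ l)).det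
  ty : ∀ l ∈ L.W, ∃ y : A, Rt X.ρ (L.g0 l) y ∧ X.π y = mx S.rb (L.g0 l) 1 1 ∧
    En X.ρ (L.g0 l) (L.τ l) y (X.ι (L.a l))

/-- **the class** -/
def Pl.Cl (L : Pl O) (S : Dat O F) : Cl S := fun _ _ X => Cnd L S X

/-- the local representation at `l` -/
def lr {S : Dat O F} {A : Type} [CommRing A] (X : Obj S A) (l : ℕ) : GQ →* M2 A where
  toFun g := X.β l * X.ρ g * X.α l
  map_one' := by rw [map_one, mul_one]; exact mul_eq_one_comm.1 (X.inv l)
  map_mul' g h := by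
    rw [map_mul]
    calc X.β l * (X.ρ g * X.ρ h) * X.α l
        = X.β l * (X.ρ g * (X.α l * X.β l) * X.ρ h) * X.α l := by rw [X.inv, mul_one]
      _ = _ := by simp only [mul_assoc]

theorem lr_apply {S : Dat O F} {A : Type} [CommRing A] (X : Obj S A) (l : ℕ) (g : GQ) :
    lr X l g = X.β l * X.ρ g * X.α l := rfl

/-- an object over the dual numbers with the standard structure maps -/
structure Std {S : Dat O F} (Y : Obj S (DualNumber F)) : Prop where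
  pi : ∀ a, Y.π a = a.fst
  io : ∀ c, Y.ι c = TrivSqZeroExt.inl (S.red c)

/-- a good block of relative dimension `k` at the place `l` -/
def Blk (L : Pl O) (S : Dat O F) (l k : ℕ) : Prop :=
  ∃ (τ ι : Type) (_ : Fintype τ) (_ : Fintype ι) (g : τ → GQ) (p q : τ → Fin 2) (c : τ → O)
    (f : ι → MvPowerSeries τ O), Fintype.card τ = Fintype.card ι + k ∧
    (∀ t, S.red (c t) = mx S.rb (g t) (p t) (q t)) ∧
    (∀ i, S.red (MvPowerSeries.constantCoeff (f i)) = 0) ∧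
    CA.BlkPt (fun i => MvPowerSeries.map S.red (f i)) ∧
    (∀ Y : Obj S (DualNumber F), Std Y → Cnd L S Y →
      (∀ t, lr Y l (g t) (p t) (q t) = Y.ι (c t)) →
      ∀ x ∈ L.D l, lr Y l x = (mx S.rb x).map TrivSqZeroExt.inl) ∧
    ∀ (A : Type) [CommRing A] (X : Obj S A), Cnd L S X → ∀ ψ : MvPowerSeries τ O →+* A,
      (∀ o, ψ (MvPowerSeries.C o) = X.ι o) →
      (∀ t, ψ (MvPowerSeries.X t) = lr X l (g t) (p t) (q t) - X.ι (c t)) → ∀ i, ψ (f i) = 0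

/-- the names of the local coordinates -/
abbrev Ix {β : Type} (τ : β → Type) (L : Pl O) : Type := (Σ b, τ b) ⊕ (L.C × Fin 8)

/-- the consequences for a homomorphism `ψ` which belongs to the object `X` -/
structure Kil (L : Pl O) {S : Dat O F} {σ β : Type} {τ ι : β → Type}
    (D : Rl.Dat O σ β L.C τ ι) {A : Type} [CommRing A] (X : Obj S A)
    (ψ : MvPowerSeries σ O →+* A) : Prop where
  eqs : D.I ≤ RingHom.ker ψ
  tr : ∀ γ : L.C, ψ (D.Φ γ).trace = (X.ρ (L.φ γ)).trace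
  unr : ∀ γ : L.C, X.ρ (L.τ γ) = 1 → ∀ i j, ψ ((D.T γ - 1) i j) = 0

/-- **The output of the block.** `card σ = card Ix + g`, so `top = 4 #T + g` in `Rl.LOC`. -/
def LOCR : Prop := ∀ (O F : Type) [CommRing O] [IsDomain O] [IsDiscreteValuationRing O]
  [IsAdicComplete (maximalIdeal O) O] [Field F] [Finite F] [CharP F 2] (S : Dat O F) (L : Pl O)
  (ϖ : O), Irreducible ϖ → L.Ok S →
  Closed (L.Cl S) ∧ (∀ l ∈ S.T, IsDec l (L.D l)) ∧
  (∀ (A : Type) [CommRing A] (X : Obj S A), (∀ g, X.ρ g = (L.r g).map X.ι) → L.Cl S A X) ∧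
  ∃ (β : Type) (τ ι : β → Type) (_ : Fintype β) (_ : ∀ b, Fintype (τ b)) (_ : ∀ b, Fintype (ι b))
    (κ : Crd S (Ix τ L)), Loc L.D (L.Cl S) κ ∧
    Fintype.card (Σ b, τ b) + 4 * L.C.card = Fintype.card (Σ b, ι b) + 4 * S.T.card ∧
    ∀ g : ℕ, ∃ D : Rl.Dat O (Ix τ L ⊕ Fin g) β L.C τ ι, D.Ok S.red ϖ ∧ (∀ γ, D.l γ = γ) ∧
      (∀ γ, D.ξ γ ^ (D.l γ - 1) = 1) ∧
      ∀ (A : Type) [CommRing A] (X : Obj S A), L.Cl S A X → ∀ ψ : PS O (Ix τ L) g →+* A,
        (∀ o, ψ (MvPowerSeries.C o) = X.ι o) →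
        (∀ i, ψ (MvPowerSeries.X (Sum.inl i)) = κ A X i) → Kil L D X ψ

/-- the residual traces vanish on all decomposition groups at `l` -/
def UniF (ρ : GQ →* GL (Fin 2) F) (l : ℕ) : Prop :=
  ∀ P : Ideal (𝓞 Qb), P.IsPrime → (l : 𝓞 Qb) ∈ P → ∀ g : GQ, (∀ x ∈ P, g • x ∈ P) →
    (mx ρ g).trace = 0

/-- **Existence of the data.** -/
def EXPL : Prop := ∀ (O F : Type) [CommRing O] [IsLocalRing O]
  [IsAdicComplete (maximalIdeal O) O] [Field F] [CharP F 2] (S : Dat O F) (H : Subgroup GQ)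
  (r : GQ →* M2 O) (c : GQ) (Sf : Finset ℕ), (∀ c, S.red c = 0 ↔ c ∈ maximalIdeal O) →
  Dh S.rb H → (∀ g, (mx S.rb g).det = 1) → S.T = insert 0 (insert 2 Sf) →
  (∀ l ∈ Sf, l.Prime ∧ l ≠ 2) → IsConj c → (∀ g, (r g).map S.red = mx S.rb g) →
  (∀ k : ℕ, IsOpen {g : GQ | (r g).map (Ideal.Quotient.mk (maximalIdeal O ^ k)) = 1}) →
  (r c).det = -1 →
  ∃ L : Pl O, L.Ok S ∧ L.H = H ∧ L.r = r ∧ L.c = c ∧ L.W ∪ L.C = Sf ∧
    ∀ l ∈ Sf, l ∈ L.C ↔ UniF S.rb l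

/-! ### rows -/

/-- the class is closed -/
def CLO : Prop := ∀ (O F : Type) [CommRing O] [IsLocalRing O] [Field F] [CharP F 2]
  (S : Dat O F) (L : Pl O), L.Ok S → Closed (L.Cl S)

/-- the block at two -/
def B2 : Prop := ∀ (O F : Type) [CommRing O] [IsLocalRing O] [IsNoetherianRing O]
  [IsAdicComplete (maximalIdeal O) O] [Field F] [Finite F] [CharP F 2] (S : Dat O F) (L : Pl O),
  L.Ok S → Blk L S 2 6

/-- the block at infinity -/
def B0 : Prop := ∀ (O F : Type) [CommRing O] [IsLocalRing O] [Field F] [CharP F 2]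
  (S : Dat O F) (L : Pl O), L.Ok S → Blk L S 0 2

/-- the blocks at the regular primes: four coordinates, no equation -/
def BW : Prop := ∀ (O F : Type) [CommRing O] [IsLocalRing O] [Field F] [CharP F 2]
  (S : Dat O F) (L : Pl O), L.Ok S → ∀ l ∈ L.W, Blk L S l 4

/-- the unipotent primes: a triangular basis, the tame relation, the tangent statement, the
determinant of the point -/
def BC : Prop := ∀ (O F : Type) [CommRing O] [IsLocalRing O]
  [IsAdicComplete (maximalIdeal O) O] [Field F] [CharP F 2]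
  (S : Dat O F) (L : Pl O), L.Ok S → ∀ l ∈ L.C,
  (∃ (u v : M2 O) (b n : O), u * v = 1 ∧
    u.map S.red * mx S.rb (L.φ l) * v.map S.red = !![1, S.red b; 0, 1] ∧
    u.map S.red * mx S.rb (L.τ l) * v.map S.red = !![1, S.red n; 0, 1]) ∧
  (∀ (A : Type) [CommRing A] (X : Obj S A),
    X.ρ (L.φ l) * X.ρ (L.τ l) = X.ρ (L.τ l) ^ l * X.ρ (L.φ l)) ∧
  (∀ Y : Obj S (DualNumber F), Std Y →
    lr Y l (L.φ l) = (mx S.rb (L.φ l)).map TrivSqZeroExt.inl →
    lr Y l (L.τ l) = (mx S.rb (L.τ l)).map TrivSqZeroExt.inl →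
    ∀ x ∈ L.D l, lr Y l x = (mx S.rb x).map TrivSqZeroExt.inl) ∧
  (L.r (L.τ l)).det ^ (l - 1) = 1

end Vale.Agent.P022D.Loc
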