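import Vale.Agent.P022D.Loc.Cls

/-!
# P022, block Loc: the assembly of the local blocks
-/

set_option linter.all false

noncomputable section

namespace Vale.Agent.P022D.Loc

open NumberField IsLocalRing MvPowerSeries
open Vale.Agent.P022 Vale.Agent.P022.H443 Vale.Agent.P022D.R
open Vale.Agent.P027M.S (mx)
open Vale.Agent.P022D.Sel (M2 Dh IsDec)

namespace GlueP

variable {O F : Type} [CommRing O] [Field F] {S : Dat O F}

theorem beta_map {A B : Type} [CommRing A] [CommRing B] {X : Obj S A} {Y : Obj S B} {u : A →+* B}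
    (h : Hom X Y u) (l : ℕ) : (X.β l).map u = Y.β l := by
  have h1 : Y.α l * (X.β l).map u = 1 := by
    rw [← h.α, ← Matrix.map_mul, X.inv, Matrix.map_one _ (map_zero _) (map_one _)]
  calc (X.β l).map u = (Y.β l * Y.α l) * (X.β l).map u := by
        rw [mul_eq_one_comm.1 (Y.inv l), one_mul]
    _ = Y.β l := by rw [Matrix.mul_assoc, h1, mul_one]

theorem lr_hom {A B : Type} [CommRing A] [CommRing B] {X : Obj S A} {Y : Obj S B} {u : A →+* B}
    (h : Hom X Y u) (l : ℕ) (g : GQ) : (lr X l g).map u = lr Y l g := by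
  rw [lr_apply, lr_apply, Matrix.map_mul, Matrix.map_mul, beta_map h, h.ρ, h.α]

theorem lr_res {A : Type} [CommRing A] (X : Obj S A) (l : ℕ) (g : GQ) :
    (lr X l g).map X.π = mx S.rb g := by
  have h1 : (X.α l).map X.π * (X.β l).map X.π = 1 := by
    rw [← Matrix.map_mul, X.inv, Matrix.map_one _ (map_zero _) (map_one _)]
  rw [X.one, one_mul] at h1
  rw [lr_apply, Matrix.map_mul, Matrix.map_mul, h1, X.one, X.res, one_mul, mul_one]

/-- the local representation in the basis given by `u`, `v` -/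
def cv {A : Type} [CommRing A] (X : Obj S A) (l : ℕ) (u v : M2 O) (g : GQ) : M2 A :=
  u.map X.ι * lr X l g * v.map X.ι

theorem map_map' {A B : Type} [CommRing A] [CommRing B] (u : M2 O) (i : O →+* A) (j : A →+* B)
    (k : O →+* B) (h : ∀ c, j (i c) = k c) : (u.map i).map j = u.map k := by
  ext a b; exact h _

theorem cv_hom {A B : Type} [CommRing A] [CommRing B] {X : Obj S A} {Y : Obj S B} {w : A →+* B}
    (h : Hom X Y w) (l : ℕ) (u v : M2 O) (g : GQ) : (cv X l u v g).map w = cv Y l u v g := by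
  rw [cv, cv, Matrix.map_mul, Matrix.map_mul, lr_hom h, map_map' u _ _ _ h.ι, map_map' v _ _ _ h.ι]

theorem cv_res {A : Type} [CommRing A] (X : Obj S A) (l : ℕ) (u v : M2 O) (g : GQ) :
    (cv X l u v g).map X.π = u.map S.red * mx S.rb g * v.map S.red := by
  rw [cv, Matrix.map_mul, Matrix.map_mul, lr_res, map_map' u _ _ _ X.alg, map_map' v _ _ _ X.alg]

theorem uv {A : Type} [CommRing A] (i : O →+* A) {u v : M2 O} (h : u * v = 1) :
    u.map i * v.map i = 1 ∧ v.map i * u.map i = 1 := by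
  have h1 : u.map i * v.map i = 1 := by
    rw [← Matrix.map_mul, h, Matrix.map_one _ (map_zero _) (map_one _)]
  exact ⟨h1, mul_eq_one_comm.1 h1⟩

/-- as a homomorphism -/
def cvh {A : Type} [CommRing A] (X : Obj S A) (l : ℕ) {u v : M2 O} (h : u * v = 1) :
    GQ →* M2 A where
  toFun := cv X l u v
  map_one' := by rw [cv, map_one, mul_one, (uv X.ι h).1]
  map_mul' g k := by
    rw [cv, cv, cv, map_mul]
    calc u.map X.ι * (lr X l g * lr X l k) * v.map X.ι
        = u.map X.ι * (lr X l g * (v.map X.ι * u.map X.ι) * lr X l k) * v.map X.ι := by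
          rw [(uv X.ι h).2, mul_one]
      _ = _ := by simp only [mul_assoc]

theorem conj_tr {A : Type} [CommRing A] {a b : M2 A} (h : a * b = 1) (M : M2 A) :
    (b * M * a).trace = M.trace := by
  rw [Matrix.trace_mul_comm, ← mul_assoc, h, one_mul]

theorem conj_det {A : Type} [CommRing A] {a b : M2 A} (h : a * b = 1) (M : M2 A) :
    (b * M * a).det = M.det := by
  have h1 := congrArg Matrix.det h
  rw [Matrix.det_mul, Matrix.det_one] at h1
  rw [Matrix.det_mul, Matrix.det_mul]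
  linear_combination M.det * h1

theorem cv_tr {A : Type} [CommRing A] (X : Obj S A) (l : ℕ) {u v : M2 O} (h : u * v = 1) (g : GQ) :
    (cv X l u v g).trace = (X.ρ g).trace := by
  rw [cv, conj_tr (uv X.ι h).2, lr_apply, conj_tr (X.inv l)]

theorem cv_det {A : Type} [CommRing A] (X : Obj S A) (l : ℕ) {u v : M2 O} (h : u * v = 1) (g : GQ) :
    (cv X l u v g).det = (X.ρ g).det := by
  rw [cv, conj_det (uv X.ι h).2, lr_apply, conj_det (X.inv l)]

theorem cv_congr {A : Type} [CommRing A] (X : Obj S A) (l : ℕ) (u v : M2 O) {g k : GQ}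
    (h : X.ρ g = X.ρ k) : cv X l u v g = cv X l u v k := by
  rw [cv, cv, lr_apply, lr_apply, h]

/-- the eight coordinates at a unipotent prime -/
def cc {A : Type} [CommRing A] (M N : M2 A) (b n : A) : Fin 8 → A :=
  ![M 0 0 - 1, M 0 1 - b, M 1 0, M 1 1 - 1, N 0 0 - 1, N 0 1 - n, N 1 0, N 1 1 - 1]

theorem cc_map {A B : Type} [CommRing A] [CommRing B] (w : A →+* B) (M N : M2 A) (b n : A)
    (i : Fin 8) : w (cc M N b n i) = cc (M.map w) (N.map w) (w b) (w n) i := by
  fin_cases i <;> simp [cc]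

theorem cc_zero {A : Type} [CommRing A] (b n : A) (i : Fin 8) :
    cc !![1, b; 0, 1] !![1, n; 0, 1] b n i = 0 := by
  fin_cases i <;> simp [cc]

theorem of_cc {A : Type} [CommRing A] {M N : M2 A} {b n : A} (h : ∀ i, cc M N b n i = 0) :
    M = !![1, b; 0, 1] ∧ N = !![1, n; 0, 1] := by
  have h0 := sub_eq_zero.1 (h 0)
  have h1 := sub_eq_zero.1 (h 1)
  have h2 : M 1 0 = 0 := h 2
  have h3 := sub_eq_zero.1 (h 3)
  have h4 := sub_eq_zero.1 (h 4)
  have h5 := sub_eq_zero.1 (h 5)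
  have h6 : N 1 0 = 0 := h 6
  have h7 := sub_eq_zero.1 (h 7)
  constructor
  · rw [Matrix.eta_fin_two M, h0, h1, h2, h3]
  · rw [Matrix.eta_fin_two N, h4, h5, h6, h7]

theorem mP_map {A σ : Type} [CommRing A] (ψ : MvPowerSeries σ O →+* A) (i : O →+* A)
    (hC : ∀ o, ψ (C o) = i o) (x : Fin 8 → σ) (M N : M2 A) (b n : O)
    (hX : ∀ k, ψ (X (x k)) = cc M N (i b) (i n) k) :
    (Rl.mP x 1 b).map ψ = M ∧ (Rl.mT x n).map ψ = N := by
  have h0 : ψ (X (x 0)) = M 0 0 - 1 := hX 0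
  have h1 : ψ (X (x 1)) = M 0 1 - i b := hX 1
  have h2 : ψ (X (x 2)) = M 1 0 := hX 2
  have h3 : ψ (X (x 3)) = M 1 1 - 1 := hX 3
  have h4 : ψ (X (x 4)) = N 0 0 - 1 := hX 4
  have h5 : ψ (X (x 5)) = N 0 1 - i n := hX 5
  have h6 : ψ (X (x 6)) = N 1 0 := hX 6
  have h7 : ψ (X (x 7)) = N 1 1 - 1 := hX 7
  constructor
  · ext a c
    fin_cases a <;> fin_cases c <;> simp [Rl.mP, h0, h1, h2, h3, hC]
  · ext a c
    fin_cases a <;> fin_cases c <;> simp [Rl.mT, h4, h5, h6, h7, hC]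

theorem lr_const {Y : Obj S (DualNumber F)} (hY : Std Y) (l : ℕ) {u v : M2 O} (h : u * v = 1)
    (g : GQ) (b : O) (h1 : u.map S.red * mx S.rb g * v.map S.red = !![1, S.red b; 0, 1])
    (h2 : cv Y l u v g = !![1, Y.ι b; 0, 1]) :
    lr Y l g = (mx S.rb g).map TrivSqZeroExt.inl := by
  let j : F →+* DualNumber F := algebraMap F (DualNumber F)
  have hj : ∀ c, j (S.red c) = Y.ι c := fun c => (hY.io c).symm
  have h3 : u.map Y.ι * (mx S.rb g).map j * v.map Y.ι = !![1, Y.ι b; 0, 1] := by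
    rw [← map_map' u S.red j Y.ι hj, ← map_map' v S.red j Y.ι hj, ← Matrix.map_mul,
      ← Matrix.map_mul, h1]
    refine Matrix.ext fun a c => ?_
    fin_cases a <;> fin_cases c <;> simp [← hj]
  rw [← h3, cv] at h2
  have h4 := congrArg (fun M => v.map Y.ι * M * u.map Y.ι) h2
  simp only [mul_assoc, (uv Y.ι h).2, mul_one] at h4
  simp only [← mul_assoc, (uv Y.ι h).2, one_mul] at h4
  exact h4

theorem two_adic {l : ℕ} (hl : l.Prime) (h2 : l ≠ 2) :
    (∃ a u, l = 2 ^ (a + 1) * (2 * u + 1) + 1) ∧ ∃ a v, l + 1 = 2 ^ (a + 1) * (2 * v + 1) := by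
  obtain ⟨k, hk⟩ := hl.odd_of_ne_two h2
  have h3 := hl.two_le
  constructor
  · obtain ⟨a, m, ⟨u, hu⟩, e⟩ := Nat.exists_eq_two_pow_mul_odd (n := k) (by omega)
    exact ⟨a, u, by rw [hk, e, hu]; ring⟩
  · obtain ⟨a, m, ⟨u, hu⟩, e⟩ := Nat.exists_eq_two_pow_mul_odd (n := k + 1) (by omega)
    refine ⟨a, u, ?_⟩
    rw [← hu, pow_succ, mul_comm _ 2, mul_assoc, ← e, hk]; ring

/-- the relative dimensions -/
def kk (l : ℕ) : ℕ := if l = 0 then 2 else if l = 2 then 6 else 4

end GlueP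

open GlueP

theorem locr (hC : CLO) (h2 : B2) (h0 : B0) (hW : BW) (hB : BC) : LOCR := by
  intro O F _ _ _ _ _ _ _ S L ϖ hϖ hL
  classical
  have hpr : ∀ l ∈ L.W ∪ L.C, l ≠ 0 ∧ l ≠ 2 := fun l hl =>
    ⟨(hL.pr l hl).1.ne_zero, (hL.pr l hl).2⟩
  refine ⟨hC O F S L hL, fun l hl => ?_, fun A _ X h => cnd_pt hL X h, ?_⟩
  · rw [hL.hT, Finset.mem_insert, Finset.mem_insert] at hl
    rcases hl with rfl | rfl | hl
    · exact Or.inl ⟨rfl, L.c, hL.cj, if_pos rfl⟩
    · refine Or.inr ⟨Nat.prime_two, L.P 2, ?_, ?_, if_neg (by norm_num)⟩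
      · rw [hL.h2]; exact Loc2.PP_prime 2
      · rw [hL.h2]; exact Loc2.p_mem_PP 2
    · exact Or.inr ⟨(hL.pr l hl).1, L.P l, (hL.hP l hl).1, (hL.hP l hl).2, if_neg (hpr l hl).1⟩
  let B : Finset ℕ := insert 0 (insert 2 L.W)
  have hBl : ∀ b : B, Blk L S b (kk b) := by
    rintro ⟨b, hb⟩
    rw [Finset.mem_insert, Finset.mem_insert] at hb
    rcases hb with rfl | rfl | hb
    · exact h0 O F S L hL
    · exact h2 O F S L hL
    · have h := hpr b (Finset.mem_union_left _ hb)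
      show Blk L S b (kk b)
      rw [kk, if_neg h.1, if_neg h.2]
      exact hW O F S L hL b hb
  choose τ ι iτ iι g p q c f hcard hc hconst hblk htan hvan using hBl
  have hCl := fun γ : L.C => hB O F S L hL γ γ.2
  choose u v b n huv hφ hτ using fun γ : L.C => (hCl γ).1
  let κ : Crd S (Ix τ L) := fun A _ X i =>
    Sum.elim (fun s : Σ b, τ b => lr X s.1 (g s.1 s.2) (p s.1 s.2) (q s.1 s.2) - X.ι (c s.1 s.2))
      (fun s : L.C × Fin 8 => cc (cv X s.1 (u s.1) (v s.1) (L.φ s.1))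
        (cv X s.1 (u s.1) (v s.1) (L.τ s.1)) (X.ι (b s.1)) (X.ι (n s.1)) s.2) i
  refine ⟨B, τ, ι, inferInstance, iτ, iι, κ, ⟨?_, ?_, ?_⟩, ?_, fun gg => ?_⟩
  · rintro A A' _ _ X Y w h - (s | s)
    · show w (_ - _) = _ - _
      rw [map_sub, h.ι, ← lr_hom h]; rfl
    · show w (cc _ _ _ _ _) = cc _ _ _ _ _
      rw [cc_map, cv_hom h, cv_hom h, h.ι, h.ι]
  · rintro A _ X - (s | s)
    · show X.π (_ - _) = 0
      rw [map_sub, X.alg, hc, ← lr_res X s.1]
      exact sub_self _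
    · show X.π (cc _ _ _ _ _) = 0
      rw [cc_map, cv_res, cv_res, hφ, hτ, X.alg, X.alg, cc_zero]
  · intro Y y1 y2 hY hκ l hl x hx
    have hs : Std Y := ⟨y1, y2⟩
    by_cases hlB : l ∈ B
    · exact htan ⟨l, hlB⟩ Y hs hY (fun t => sub_eq_zero.1 (hκ (Sum.inl ⟨⟨l, hlB⟩, t⟩))) x hx
    · have hlC : l ∈ L.C := by
        rw [hL.hT] at hl
        simp only [B, Finset.mem_insert, Finset.mem_union, not_or] at hl hlB
        tauto
      obtain ⟨e1, e2⟩ := of_cc (M := cv Y l (u ⟨l, hlC⟩) (v ⟨l, hlC⟩) (L.φ l))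
        (N := cv Y l (u ⟨l, hlC⟩) (v ⟨l, hlC⟩) (L.τ l)) (b := Y.ι (b ⟨l, hlC⟩))
        (n := Y.ι (n ⟨l, hlC⟩)) fun i => hκ (Sum.inr (⟨l, hlC⟩, i))
      exact (hCl ⟨l, hlC⟩).2.2.1 Y hs (lr_const hs l (huv _) _ _ (hφ _) e1)
        (lr_const hs l (huv _) _ _ (hτ _) e2) x hx
  · have hW0 : ∀ l ∈ L.W, kk l = 4 := fun l hl => by
      have h := hpr l (Finset.mem_union_left _ hl)
      rw [kk, if_neg h.1, if_neg h.2]
    have n2 : 2 ∉ L.W ∪ L.C := fun h => (hpr 2 h).2 rfl
    have n0 : 0 ∉ L.W ∪ L.C := fun h => (hpr 0 h).1 rfl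
    have hk : ∑ b : B, kk b = 8 + 4 * L.W.card := by
      rw [Finset.sum_coe_sort B kk, Finset.sum_insert, Finset.sum_insert,
        Finset.sum_congr rfl hW0, Finset.sum_const, smul_eq_mul]
      · simp only [kk]; norm_num; ring
      · exact fun h => n2 (Finset.mem_union_left _ h)
      · rw [Finset.mem_insert, not_or]
        exact ⟨by norm_num, fun h => n0 (Finset.mem_union_left _ h)⟩
    have hT : S.T.card = 2 + L.W.card + L.C.card := by
      rw [hL.hT, Finset.card_insert_of_notMem, Finset.card_insert_of_notMem n2,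
        Finset.card_union_of_disjoint hL.dj]
      · ring
      · rw [Finset.mem_insert, not_or]
        exact ⟨by norm_num, n0⟩
    rw [Fintype.card_sigma, Fintype.card_sigma, Finset.sum_congr rfl fun b _ => hcard b,
      Finset.sum_add_distrib, hk, hT]
    ring
  · have h2a := fun γ : L.C => two_adic (hL.pr γ (Finset.mem_union_right _ γ.2)).1
      (hL.pr γ (Finset.mem_union_right _ γ.2)).2
    choose a ha using fun γ : L.C => (h2a γ).1
    choose a' ha' using fun γ : L.C => (h2a γ).2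
    let D : Rl.Dat O (Ix τ L ⊕ Fin gg) B L.C τ ι :=
      { e := Function.Embedding.inl
        f := f
        s := fun _ => 1
        b := b
        n := n
        ξ := fun γ => (L.r (L.τ γ)).det
        l := fun γ => γ
        a := a
        a' := a' }
    refine ⟨D, ⟨S.surj, ?_, hconst, hblk, fun γ => ?_, fun γ => ?_, ha, ha'⟩, fun _ => rfl,
      fun γ => (hCl γ).2.2.2, fun A _ X hX ψ hψC hψX => ?_⟩
    · rw [← hϖ.maximalIdeal_eq]
      exact Ideal.ext fun c => hL.ker c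
    · show S.red 1 ≠ 0
      rw [map_one]; exact one_ne_zero
    · show S.red (L.r (L.τ γ)).det = 1
      rw [RingHom.map_det, ← hL.det (L.τ γ), ← hL.lift]; rfl
    · have hm : ∀ γ : L.C, (D.Φ γ).map ψ = cv X γ (u γ) (v γ) (L.φ γ) ∧
          (D.T γ).map ψ = cv X γ (u γ) (v γ) (L.τ γ) := fun γ =>
        mP_map ψ X.ι hψC (D.x γ) _ _ (b γ) (n γ) fun k => hψX (Sum.inr (γ, k))
      refine ⟨sup_le (sup_le ?_ ?_) ?_, fun γ => ?_, fun γ hγ i j => ?_⟩
      · rw [Ideal.span_le]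
        rintro _ ⟨s, rfl⟩
        exact hvan s.1 A X hX (ψ.comp (rename (R := O) (CA.emb D.eg s.1)).toRingHom)
          (fun o => (congrArg ψ (rename_C _ o)).trans (hψC o))
          (fun t => (congrArg ψ (rename_X _ t)).trans (hψX (Sum.inl ⟨s.1, t⟩))) s.2
      · rw [Ideal.span_le]
        rintro _ ⟨s, rfl⟩
        have e : ψ.mapMatrix (D.Φ s.1 * D.T s.1 - D.T s.1 ^ D.l s.1 * D.Φ s.1) = 0 := by
          rw [map_sub, map_mul, map_mul, map_pow, RingHom.mapMatrix_apply, RingHom.mapMatrix_apply,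
            (hm _).1, (hm _).2, sub_eq_zero]
          have e1 := (hCl s.1).2.1 A X
          rw [← map_pow, ← map_mul, ← map_mul] at e1
          have e2 := cv_congr X s.1 (u s.1) (v s.1) e1
          change cvh X s.1 (huv s.1) _ = cvh X s.1 (huv s.1) _ at e2
          rw [map_mul, map_mul, map_pow] at e2
          exact e2
        exact congrFun (congrFun e s.2.1) s.2.2
      · rw [Ideal.span_le]
        rintro _ ⟨γ, rfl⟩
        show ψ ((D.T γ).det - C (D.ξ γ)) = 0
        rw [map_sub, RingHom.map_det, RingHom.mapMatrix_apply, (hm γ).2, cv_det X _ (huv γ), hψC,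
          hX.dl γ (Finset.mem_union_right _ γ.2)]
        exact sub_self _
      · rw [← cv_tr X γ (huv γ), ← (hm γ).1, Matrix.trace_fin_two, Matrix.trace_fin_two, map_add]
        rfl
      · have e : ψ.mapMatrix (D.T γ - 1) = 0 := by
          rw [map_sub, map_one, RingHom.mapMatrix_apply, (hm γ).2, sub_eq_zero,
            cv_congr X γ (u γ) (v γ) (k := 1) (by rw [hγ, map_one])]
          exact (cvh X γ (huv γ)).map_one
        exact congrFun (congrFun e i) j

end Vale.Agent.P022D.Loc
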